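import Vale.Agent.Lib.P322.Closure

namespace Vale.Agent.Results.P322.A_ClosureAndOr

open Vale.Agent.Lib.P322

/-- Closure of the Courtade-Kumar inequality under conjunction and disjunction of Boolean
functions of disjoint sets of coordinates: if `h` depends only on the coordinates in `A`,
`g` only on the coordinates outside `A`, and both satisfy `I(·(X); Y) ≤ 1 - h2(ε)`, then so
does `h ∧ g` whenever `P(h = 1) + P(g = 1) ≤ 1`, and so does `h ∨ g` whenever
`P(h = 1) + P(g = 1) ≥ 1`. -/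
theorem result :
    ∀ (n : ℕ) (A : Set (Fin n)) (h g : (Fin n → Bool) → Bool) (ε : ℝ),
      0 ≤ ε → ε ≤ 1 / 2 → DependsOn h A → DependsOn g Aᶜ →
      mutualInfo h ε ≤ 1 - h2 ε → mutualInfo g ε ≤ 1 - h2 ε →
      (prob h + prob g ≤ 1 → mutualInfo (fun x => h x && g x) ε ≤ 1 - h2 ε) ∧
      (1 ≤ prob h + prob g → mutualInfo (fun x => h x || g x) ε ≤ 1 - h2 ε) := by
  intro n A h g ε h0 h1 hh hg Ih Ig
  have h1' : ε ≤ 1 := by linarith
  exact ⟨fun hpq => ck_and A hh hg h0 h1' Ih Ig hpq, fun hpq => ck_or A hh hg h0 h1' Ih Ig hpq⟩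

end Vale.Agent.Results.P322.A_ClosureAndOr
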