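import Vale.Agent.Lib.P322.Closure

namespace Vale.Agent.Results.P322.B_AndInequality

open Vale.Agent.Lib.P322

/-- If `h` depends only on the coordinates in `A` and `g` only on the coordinates outside
`A`, then `I(h(X) ∧ g(X); Y) ≤ P(g = 1) I(h(X); Y) + P(h = 1) I(g(X); Y)` and
`I(h(X) ∨ g(X); Y) ≤ P(g = 0) I(h(X); Y) + P(h = 0) I(g(X); Y)`. -/
theorem result :
    ∀ (n : ℕ) (A : Set (Fin n)) (h g : (Fin n → Bool) → Bool) (ε : ℝ),
      0 ≤ ε → ε ≤ 1 / 2 → DependsOn h A → DependsOn g Aᶜ →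
      mutualInfo (fun x => h x && g x) ε ≤ prob g * mutualInfo h ε + prob h * mutualInfo g ε ∧
      mutualInfo (fun x => h x || g x) ε
        ≤ (1 - prob g) * mutualInfo h ε + (1 - prob h) * mutualInfo g ε := by
  intro n A h g ε h0 h1 hh hg
  have h1' : ε ≤ 1 := by linarith
  exact ⟨mutualInfo_and_le A hh hg h0 h1', mutualInfo_or_le A hh hg h0 h1'⟩

end Vale.Agent.Results.P322.B_AndInequality
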