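import Vale.Agent.Lib.P322.Influence
import Vale.Agent.Lib.P322.Closure

namespace Vale.Agent.Results.P322.C_TotalInfluence

open Vale.Agent.Lib.P322

/-- For every Boolean function `f` on the `n`-cube and every `ε ∈ [0, 1/2]`:
(1) `I(f(X); Y) ≤ Inf(f) (1 - h2(ε))`, where `Inf(f)` is the total influence of `f`;
(2) hence the Courtade-Kumar inequality `I(f(X); Y) ≤ 1 - h2(ε)` holds whenever `Inf(f) ≤ 1`;
(3) for the indicator of a subcube `{x : x i = σ i for all i ∈ S}` one has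
`I(f(X); Y) ≤ 2 |S| 2^(-|S|) (1 - h2(ε))` and `I(f(X); Y) ≤ 1 - h2(ε)`. -/
theorem result :
    ∀ (n : ℕ) (ε : ℝ), 0 ≤ ε → ε ≤ 1 / 2 →
      (∀ f : (Fin n → Bool) → Bool, mutualInfo f ε ≤ totalInfluence f * (1 - h2 ε)) ∧
      (∀ f : (Fin n → Bool) → Bool, totalInfluence f ≤ 1 → mutualInfo f ε ≤ 1 - h2 ε) ∧
      (∀ (S : Finset (Fin n)) (σ : Fin n → Bool),
        mutualInfo (fun x : Fin n → Bool => decide (∀ i ∈ S, x i = σ i)) ε
            ≤ 2 * S.card * (1 / 2 : ℝ) ^ S.card * (1 - h2 ε) ∧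
        mutualInfo (fun x : Fin n → Bool => decide (∀ i ∈ S, x i = σ i)) ε ≤ 1 - h2 ε) := by
  intro n ε h0 h1
  have h1' : ε ≤ 1 := by linarith
  have key : ∀ f : (Fin n → Bool) → Bool, mutualInfo f ε ≤ totalInfluence f * (1 - h2 ε) := by
    intro f
    rw [mutualInfo_eq h0 h1' f]
    exact info_le_influence h0 h1' n f
  refine ⟨key, ?_, ?_⟩
  · intro f hf
    have hnn : 0 ≤ 1 - h2 ε := sub_nonneg.mpr (h2_le_one ε)
    calc mutualInfo f ε ≤ totalInfluence f * (1 - h2 ε) := key f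
      _ ≤ 1 * (1 - h2 ε) := mul_le_mul_of_nonneg_right hf hnn
      _ = 1 - h2 ε := one_mul _
  · intro S σ
    have e : (fun x : Fin n → Bool => decide (∀ i ∈ S, x i = σ i)) = subcube S σ := by
      funext x
      unfold subcube
      rw [decide_eq_decide]
    rw [e]
    exact ⟨(subcube_facts h0 h1' σ S).2, mutualInfo_subcube_le h0 h1' σ S⟩

end Vale.Agent.Results.P322.C_TotalInfluence
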