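import Vale.Agent.Lib.P322.Coord

namespace Vale.Agent.Results.P322.D_Coordinatewise

open Vale.Agent.Lib.P322

/-- Coordinatewise form of the Courtade-Kumar inequality for ALL Boolean functions (no balance
assumption): for every `n`, every `f : {-1,1}^n → {-1,1}` and every `ε ∈ [0, 1/2]`,
`∑_i I(f(X); Y_i) ≤ 1 - h2(ε)`, where `Y_i` is the `i`-th coordinate of the channel output. -/
theorem result :
    ∀ (n : ℕ) (f : (Fin n → Bool) → Bool) (ε : ℝ), 0 ≤ ε → ε ≤ 1 / 2 →
      ∑ i : Fin n, coordInfo f ε i ≤ 1 - h2 ε := by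
  intro n f ε h0 h1
  exact sum_coordInfo_le h0 h1 f

end Vale.Agent.Results.P322.D_Coordinatewise
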